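import Vale.Agent.P127.KDefs
import Vale.Agent.P122W36.Defs

/-! The Kakeya maximal function on the unit sphere and the maximal conjecture. -/

open MeasureTheory Metric
open scoped ENNReal NNReal

namespace Vale.Agent.P127W36

open Vale.Agent.P127

/-- `n`-dimensional Euclidean space -/
abbrev E (n : ℕ) := EuclideanSpace ℝ (Fin n)

/-- the Kakeya maximal function `K_δ f(e)`: the supremum over `a` of the average of `|f|` over the
tube `T_δ(a, e)` -/
noncomputable def K {n : ℕ} (δ : ℝ) (f : E n → ℂ) (e : sphere (0 : E n) 1) : ℝ≥0∞ :=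
  ⨆ a : E n, (volume (tube δ a e))⁻¹ * ∫⁻ x in tube δ a e, ‖f x‖ₑ

/-- the Kakeya maximal conjecture in `ℝ^n`, with the surface measure of the unit sphere -/
def MaximalConjecture (n : ℕ) : Prop :=
  ∀ ε : ℝ, 0 < ε → ∃ C : ℝ≥0, ∀ f : E n → ℂ, MemLp f n volume → ∀ δ : ℝ, 0 < δ → δ < 1 →
    eLpNorm (K δ f) n (volume : Measure (E n)).toSphere ≤
      C * ENNReal.ofReal (δ ^ (-ε)) * eLpNorm f n volume

end Vale.Agent.P127W36
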