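import Vale.Agent.P127W36.Defs
import Mathlib.Analysis.Convex.Measure
import Mathlib.Analysis.InnerProductSpace.Projection.Reflection
import Mathlib.MeasureTheory.Function.LpSeminorm.CompareExp

/-! The Kakeya maximal function is lower semicontinuous and finite. -/

open MeasureTheory Metric Set Filter Topology
open scoped ENNReal NNReal RealInnerProductSpace

namespace Vale.Agent.P127W36

open Vale.Agent.P127

variable {n : ℕ} {δ : ℝ} {a e : E n}

/-- the open tube -/
def otube (δ : ℝ) (a e : E n) : Set (E n) :=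
  {x | |⟪x - a, e⟫| < 1 / 2 ∧ ‖x - a - ⟪x - a, e⟫ • e‖ < δ}

lemma mem_tube_iff (he : ‖e‖ = 1) {x : E n} :
    x ∈ tube δ a e ↔ |⟪x - a, e⟫| ≤ 1 / 2 ∧ ‖x - a - ⟪x - a, e⟫ • e‖ ≤ δ := by
  have hee : ⟪e, e⟫ = (1 : ℝ) := by rw [real_inner_self_eq_norm_sq, he]; norm_num
  constructor
  · rintro ⟨t, u, h1, h2, h3, rfl⟩
    have e1 : a + t • e + u - a = t • e + u := by abel
    have e2 : ⟪t • e + u, e⟫ = t := by
      rw [inner_add_left, real_inner_smul_left, hee, h2]
      ring
    rw [e1, e2]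
    exact ⟨h1, by simpa using h3⟩
  · rintro ⟨h1, h2⟩
    refine ⟨_, _, h1, ?_, h2, by abel⟩
    rw [inner_sub_left, real_inner_smul_left, hee]
    ring

lemma isOpen_otube_prod (δ : ℝ) (a : E n) : IsOpen {z : E n × E n | z.2 ∈ otube δ a z.1} := by
  have h1 : Continuous fun z : E n × E n => |⟪z.2 - a, z.1⟫| := by fun_prop
  have h2 : Continuous fun z : E n × E n => ‖z.2 - a - ⟪z.2 - a, z.1⟫ • z.1‖ := by fun_prop
  exact (isOpen_lt h1 continuous_const).inter (isOpen_lt h2 continuous_const)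

lemma isOpen_otube : IsOpen (otube δ a e) :=
  (isOpen_otube_prod δ a).preimage (f := fun x => (e, x)) (by fun_prop)

lemma convex_otube : Convex ℝ (otube δ a e) := by
  set L₁ : E n →ₗ[ℝ] ℝ := (innerSL ℝ e).toLinearMap with hL₁
  set L₂ : E n →ₗ[ℝ] E n := LinearMap.id - L₁.smulRight e with hL₂
  have h1 : otube δ a e = (fun x => -a + x) ⁻¹' (L₁ ⁻¹' ball 0 (1 / 2) ∩ L₂ ⁻¹' ball 0 δ) := by
    ext x
    simp only [otube, mem_ofPred_eq, mem_preimage, mem_inter_iff, mem_ball_zero_iff, hL₁, hL₂,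
      neg_add_eq_sub, LinearMap.sub_apply, LinearMap.id_apply, LinearMap.smulRight_apply,
      ContinuousLinearMap.coe_coe, innerSL_apply_apply, Real.norm_eq_abs, real_inner_comm e]
  rw [h1]
  exact (((convex_ball _ _).linear_preimage L₁).inter
    ((convex_ball _ _).linear_preimage L₂)).translate_preimage_right (-a)

lemma otube_subset (he : ‖e‖ = 1) : otube δ a e ⊆ tube δ a e := fun _ hx =>
  (mem_tube_iff he).2 ⟨hx.1.le, hx.2.le⟩

lemma tube_subset_closure (hδ : 0 < δ) (he : ‖e‖ = 1) : tube δ a e ⊆ closure (otube δ a e) := by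
  intro x hx
  obtain ⟨h1, h2⟩ := (mem_tube_iff he).1 hx
  have hc : Continuous fun s : ℝ => a + s • (x - a) := by fun_prop
  have ht : Tendsto (fun s : ℝ => a + s • (x - a)) (𝓝[<] 1) (𝓝 x) := by
    have := (hc.tendsto 1).mono_left (nhdsWithin_le_nhds (s := Iio 1))
    simpa using this
  refine mem_closure_of_tendsto ht ?_
  filter_upwards [Ioo_mem_nhdsLT (zero_lt_one' ℝ)] with s hs
  have e1 : a + s • (x - a) - a = s • (x - a) := by abel
  have hs0 := hs.1
  have hs1 := hs.2
  refine ⟨?_, ?_⟩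
  · rw [e1, real_inner_smul_left, abs_mul, abs_of_pos hs0]
    nlinarith [abs_nonneg ⟪x - a, e⟫]
  · rw [e1, real_inner_smul_left, mul_smul, ← smul_sub, norm_smul, Real.norm_of_nonneg hs0.le]
    nlinarith [norm_nonneg (x - a - ⟪x - a, e⟫ • e)]

lemma tube_ae_eq (hδ : 0 < δ) (he : ‖e‖ = 1) : tube δ a e =ᵐ[volume] otube δ a e := by
  refine ae_eq_set.2 ⟨measure_mono_null ?_
    ((convex_otube (δ := δ) (a := a) (e := e)).addHaar_frontier volume), ?_⟩
  · intro x hx
    rw [isOpen_otube.frontier_eq]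
    exact ⟨tube_subset_closure hδ he hx.1, hx.2⟩
  · rw [sdiff_eq_empty.2 (otube_subset he), measure_empty]

lemma volume_tube_eq {a' e' : E n} (he : ‖e‖ = 1) (he' : ‖e'‖ = 1) :
    volume (tube δ a e) = volume (tube δ a' e') := by
  set ρ : E n ≃ₗᵢ[ℝ] E n := Submodule.reflection (ℝ ∙ (e - e'))ᗮ with hρ
  have hρe : ρ e = e' := Submodule.reflection_sub (by rw [he, he'])
  have h1 : tube δ a e = (fun x => -a + x) ⁻¹' (ρ ⁻¹' ((fun x => a' + x) ⁻¹' tube δ a' e')) := by
    ext x
    simp only [mem_preimage, mem_tube_iff he, mem_tube_iff he', add_sub_cancel_left,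
      neg_add_eq_sub]
    rw [← hρe, ρ.inner_map_map, ← map_smul, ← map_sub, ρ.norm_map]
  have h2 := MeasurePreserving.measure_preimage_equiv (f := ρ.toHomeomorph.toMeasurableEquiv)
    (LinearIsometryEquiv.measurePreserving ρ) ((fun x => a' + x) ⁻¹' tube δ a' e')
  rw [measure_preimage_add] at h2
  rw [h1, measure_preimage_add]
  exact h2

lemma volume_tube_pos (hδ : 0 < δ) (he : ‖e‖ = 1) : 0 < volume (tube δ a e) :=
  (isOpen_otube.measure_pos volume ⟨a, by simp [otube, hδ]⟩).trans_le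
    (measure_mono (otube_subset he))

lemma volume_tube_lt_top (he : ‖e‖ = 1) : volume (tube δ a e) < ∞ := by
  refine (measure_mono (t := closedBall a (1 / 2 + δ)) ?_).trans_lt measure_closedBall_lt_top
  rintro _ ⟨t, u, h1, -, h3, rfl⟩
  rw [mem_closedBall_iff_norm, add_assoc, add_sub_cancel_left]
  refine (norm_add_le _ _).trans ?_
  rw [norm_smul, he, mul_one, Real.norm_eq_abs]
  linarith

lemma lsc_otube {g : E n → ℝ≥0∞} (hg : AEMeasurable g volume) (δ : ℝ) (a : E n) :
    LowerSemicontinuous fun e : E n => ∫⁻ x in otube δ a e, g x := by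
  rw [lowerSemicontinuous_iff_le_liminf]
  intro e
  simp only [← lintegral_indicator isOpen_otube.measurableSet]
  refine le_trans (lintegral_mono fun x => ?_)
    (lintegral_liminf_le' fun e' => hg.indicator isOpen_otube.measurableSet)
  by_cases hx : x ∈ otube δ a e
  · rw [indicator_of_mem hx]
    refine le_liminf_of_le (by isBoundedDefault) ?_
    have h1 : IsOpen {e' : E n | x ∈ otube δ a e'} :=
      (isOpen_otube_prod δ a).preimage (f := fun e' => (e', x)) (by fun_prop)
    filter_upwards [h1.mem_nhds hx] with e' he'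
    rw [indicator_of_mem he']
  · rw [indicator_of_notMem hx]
    exact zero_le

theorem lsc_K (hδ : 0 < δ) {f : E n → ℂ} (hf : AEStronglyMeasurable f volume) :
    LowerSemicontinuous (K δ f) := by
  refine lowerSemicontinuous_iSup fun a e₀ => ?_
  have h0 : ‖(e₀ : E n)‖ = 1 := norm_eq_of_mem_sphere e₀
  have h1 : (fun e : sphere (0 : E n) 1 => (volume (tube δ a e))⁻¹ * ∫⁻ x in tube δ a e, ‖f x‖ₑ) =
      fun e : sphere (0 : E n) 1 =>
        ∫⁻ x in otube δ a e, (volume (tube δ a e₀))⁻¹ * ‖f x‖ₑ := by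
    funext e
    have he : ‖(e : E n)‖ = 1 := norm_eq_of_mem_sphere e
    rw [lintegral_const_mul' _ _ (ENNReal.inv_ne_top.2 (volume_tube_pos hδ h0).ne'),
      volume_tube_eq (a' := a) he h0, setLIntegral_congr (tube_ae_eq hδ he)]
  change LowerSemicontinuousAt (fun e : sphere (0 : E n) 1 =>
    (volume (tube δ a e))⁻¹ * ∫⁻ x in tube δ a e, ‖f x‖ₑ) e₀
  rw [h1]
  exact (lsc_otube (hf.enorm.const_mul _) δ a).comp continuous_subtype_val e₀

theorem K_lt_top (hn : 1 ≤ n) (hδ : 0 < δ) {f : E n → ℂ} (hf : MemLp f n volume)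
    (e : sphere (0 : E n) 1) : K δ f e < ∞ := by
  have he : ‖(e : E n)‖ = 1 := norm_eq_of_mem_sphere e
  set v := volume (tube δ 0 (e : E n)) with hv
  have hv0 : v ≠ 0 := (volume_tube_pos hδ he).ne'
  have hvt : v ≠ ∞ := (volume_tube_lt_top he).ne
  have hn' : (1 : ℝ) ≤ n := by exact_mod_cast hn
  refine lt_of_le_of_lt (iSup_le fun a => ?_) (b := v⁻¹ * (eLpNorm f n volume *
    v ^ (1 / (1 : ℝ≥0∞).toReal - 1 / (n : ℝ≥0∞).toReal))) ?_
  · have h1 := eLpNorm_le_eLpNorm_mul_rpow_measure_univ (p := 1) (q := n)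
      (μ := volume.restrict (tube δ a e)) (by exact_mod_cast hn) hf.1.restrict
    rw [eLpNorm_one_eq_lintegral_enorm, Measure.restrict_apply_univ,
      volume_tube_eq (a' := 0) he he] at h1
    rw [volume_tube_eq (a' := 0) he he]
    gcongr
    refine h1.trans ?_
    gcongr
    exact Measure.restrict_le_self
  · refine ENNReal.mul_lt_top (ENNReal.inv_lt_top.2 hv0.bot_lt) (ENNReal.mul_lt_top hf.2 ?_)
    refine ENNReal.rpow_lt_top_of_nonneg ?_ hvt
    simp only [ENNReal.toReal_one, ENNReal.toReal_natCast, sub_nonneg]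
    gcongr

end Vale.Agent.P127W36
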