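import Vale.Agent.P127W36.Lsc
import Vale.Agent.P127.M3.FrontE

/-! From the majorant form to the norm form of the Kakeya maximal inequality. -/

open MeasureTheory Metric Set Filter Topology
open scoped ENNReal NNReal

namespace Vale.Agent.P127W36

open Vale.Agent.P127

theorem maximal_of_kmax (h : M3.KMax 2) : MaximalConjecture 3 := by
  intro ε hε
  obtain ⟨C, hC⟩ := h (3 * ε) (by positivity)
  refine ⟨C.toNNReal ^ (1 / 3 : ℝ), fun f hf δ h0 h1 => ?_⟩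
  have hm : AEMeasurable (fun x => ‖f x‖ₑ) volume := hf.1.enorm
  obtain ⟨G, hG, hKG, hI⟩ := hC δ h0 h1 (hm.mk _) hm.measurable_mk
  have e1 : ∀ e : sphere (0 : E 3) 1, K δ f e ≤ G e := by
    intro e
    refine le_trans (le_of_eq ?_) (hKG e (norm_eq_of_mem_sphere e))
    refine iSup_congr fun a => ?_
    rw [ENNReal.div_eq_inv_mul, lintegral_congr_ae (ae_restrict_of_ae hm.ae_eq_mk)]
  have e2 : ∫⁻ x, (hm.mk _) x ^ (2 + 1) = ∫⁻ x, ‖f x‖ₑ ^ (3 : ℝ) := by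
    refine lintegral_congr_ae (hm.ae_eq_mk.mono fun x hx => ?_)
    simp only [← hx]
    rw [← ENNReal.rpow_natCast]
    norm_num
  have e3 : ∫⁻ e, ‖K δ f e‖ₑ ^ (3 : ℝ) ∂(volume : Measure (E 3)).toSphere ≤
      ∫⁻ e, G e ^ (2 + 1) ∂(surf (2 + 1)) := by
    rw [surf, lintegral_map (hG.pow_const _) measurable_subtype_coe]
    refine lintegral_mono fun e => ?_
    rw [enorm_eq_self, ← ENNReal.rpow_natCast, show (((2 + 1 : ℕ) : ℝ)) = 3 by norm_num]
    exact ENNReal.rpow_le_rpow (e1 e) (by norm_num)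
  have e4 : ENNReal.ofReal (C * δ ^ (-(3 * ε))) ^ (1 / 3 : ℝ) ≤
      ((C.toNNReal ^ (1 / 3 : ℝ) : ℝ≥0) : ℝ≥0∞) * ENNReal.ofReal (δ ^ (-ε)) := by
    rw [ENNReal.ofReal_mul' (Real.rpow_nonneg h0.le _), ENNReal.mul_rpow_of_nonneg _ _ (by norm_num),
      ENNReal.ofReal_rpow_of_nonneg (Real.rpow_nonneg h0.le _) (by norm_num),
      ← Real.rpow_mul h0.le, show -(3 * ε) * (1 / 3) = -ε by ring,
      ENNReal.coe_rpow_of_nonneg _ (by norm_num)]
    rfl
  rw [eLpNorm_eq_lintegral_rpow_enorm_toReal (by simp) (by simp),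
    eLpNorm_eq_lintegral_rpow_enorm_toReal (by simp) (by simp),
    show ((3 : ℕ) : ℝ≥0∞).toReal = 3 by simp]
  rw [e2] at hI
  refine (ENNReal.rpow_le_rpow (e3.trans hI) (by norm_num)).trans ?_
  rw [ENNReal.mul_rpow_of_nonneg _ _ (by norm_num)]
  gcongr

end Vale.Agent.P127W36
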