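import Vale.Agent.P122W36.Bridge
import Vale.Agent.P122W36.Pos
import Mathlib.MeasureTheory.Constructions.HaarToSphere
import Mathlib.Analysis.InnerProductSpace.ProdL2

/-! The cone measure of the unit sphere is its induced surface measure. -/

open MeasureTheory Metric Set Filter Topology
open scoped ENNReal NNReal RealInnerProductSpace Pointwise ContDiff

namespace Vale.Agent.P127W36

open Vale.Agent.P122W36 Vale.Agent.P218GA

/-- the parameter space of the cone -/
abbrev D := WithLp 2 (ℝ × R2)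

variable {U : Set R2} {r : R2 → R3}

lemma inner_param (h : IsParam (sphere 0 1) U r) {q : R2} (hq : q ∈ U) (a : R2) :
    ⟪r q, fderiv ℝ r q a⟫ = 0 := by
  have h1 := ((h.contDiffAt hq).differentiableAt (by simp)).hasFDerivAt
  have h2 := h1.norm_sq
  have h3 : (fun u => ‖r u‖ ^ 2) =ᶠ[𝓝 q] fun _ => 1 := by
    filter_upwards [h.isOpen.mem_nhds hq] with u hu
    rw [norm_eq_of_mem_sphere ⟨r u, h.mem hu⟩, one_pow]
  have h4 := h3.fderiv_eq (𝕜 := ℝ)
  rw [h2.fderiv, fderiv_fun_const] at h4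
  have h5 := congrArg (fun L : R2 →L[ℝ] ℝ => L a) h4
  simpa using h5

lemma volume_cone (h : IsParam (sphere 0 1) U r) {A : Set R2} (hAU : A ⊆ U)
    (hA : MeasurableSet A) :
    3 * volume (Ioo (0 : ℝ) 1 • (r '' A)) = ∫⁻ q in A, ENNReal.ofReal √(firstForm r q).det := by
  set π : D →L[ℝ] ℝ × R2 := (WithLp.prodContinuousLinearEquiv 2 ℝ ℝ R2 : D →L[ℝ] ℝ × R2) with hπ
  set Φ : D → R3 := fun z => (π z).1 • r (π z).2 with hΦ
  set O : Set D := π ⁻¹' (Ioi 0 ×ˢ U) with hO
  have hOo : IsOpen O := (isOpen_Ioi.prod h.isOpen).preimage π.continuous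
  have hn : ∀ q ∈ U, ‖r q‖ = 1 := fun q hq => norm_eq_of_mem_sphere ⟨r q, h.mem hq⟩
  have hcd : ContDiffOn ℝ 1 Φ O := fun z hz =>
    ((contDiffAt_fst.comp z π.contDiff.contDiffAt).smul
      (((h.contDiffAt hz.2).of_le (by simp)).comp z
        (contDiffAt_snd.comp z π.contDiff.contDiffAt))).contDiffWithinAt
  have hfd : ∀ z ∈ O, ∀ v, fderiv ℝ Φ z v =
      (π z).1 • fderiv ℝ r (π z).2 (π v).2 + (π v).1 • r (π z).2 := by
    intro z hz v
    have h1 := (hasFDerivAt_fst (𝕜 := ℝ) (p := π z)).comp z π.hasFDerivAt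
    have h2 := ((h.contDiffAt hz.2).differentiableAt (by simp)).hasFDerivAt.comp z
      ((hasFDerivAt_snd (𝕜 := ℝ) (p := π z)).comp z π.hasFDerivAt)
    have h3 : fderiv ℝ Φ z = _ := (h1.smul h2).fderiv
    rw [h3]
    simp
  have hrr : ∀ q ∈ U, ⟪r q, r q⟫ = 1 := fun q hq => by
    rw [real_inner_self_eq_norm_sq, hn q hq, one_pow]
  have hinj : ∀ z ∈ O, Function.Injective (fderiv ℝ Φ z) := by
    intro z hz
    rw [injective_iff_map_eq_zero]
    intro v hv
    rw [hfd z hz] at hv
    have h1 := congrArg (fun w => ⟪r (π z).2, w⟫) hv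
    simp only [inner_add_right, real_inner_smul_right, inner_param h hz.2, hrr _ hz.2, mul_zero,
      zero_add, mul_one, inner_zero_right] at h1
    rw [h1, zero_smul, add_zero, smul_eq_zero] at hv
    have h2 : (π v).2 = 0 := h.immersion _ hz.2 (by
      rw [map_zero]
      exact hv.resolve_left (ne_of_gt hz.1))
    exact (WithLp.prodContinuousLinearEquiv 2 ℝ ℝ R2).injective (Prod.ext h1 h2)
  set s : Set D := π ⁻¹' (Ioo 0 1 ×ˢ A) with hs
  have hsm : MeasurableSet s := π.continuous.measurable (measurableSet_Ioo.prod hA)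
  have hsO : s ⊆ O := fun z hz => ⟨hz.1.1, hAU hz.2⟩
  have hinjOn : InjOn Φ s := by
    intro z hz w hw e
    have h1 : (π z).1 = (π w).1 := by
      have := congrArg norm e
      simp only [hΦ, norm_smul, hn _ (hAU hz.2), hn _ (hAU hw.2), mul_one] at this
      rwa [Real.norm_of_nonneg hz.1.1.le, Real.norm_of_nonneg hw.1.1.le] at this
    have h2 : r (π z).2 = r (π w).2 := by
      have h3 : (π z).1 • r (π z).2 = (π w).1 • r (π w).2 := e
      rw [h1] at h3
      exact smul_right_injective R3 hw.1.1.ne' h3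
    exact (WithLp.prodContinuousLinearEquiv 2 ℝ ℝ R2).injective
      (Prod.ext h1 (h.injOn (hAU hz.2) (hAU hw.2) h2))
  have himg : Φ '' s = Ioo (0 : ℝ) 1 • (r '' A) := by
    ext y
    constructor
    · rintro ⟨z, hz, rfl⟩
      exact smul_mem_smul hz.1 (mem_image_of_mem r hz.2)
    · rintro ⟨t, ht, _, ⟨q, hq, rfl⟩, rfl⟩
      exact ⟨WithLp.toLp 2 (t, q), ⟨ht, hq⟩, rfl⟩
  have hfr : Module.finrank ℝ D = 3 := by
    rw [(WithLp.prodContinuousLinearEquiv 2 ℝ ℝ R2).toLinearEquiv.finrank_eq]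
    simp
  have h1 := (isJac_volume (U := D) (V := R3) (m := 3) hfr).measure_image hOo hcd hinj hsm hsO
    hinjOn
  rw [hausdorff_eq_smul, Measure.smul_apply, EuclideanSpace.euclideanHausdorffMeasure_eq_volume,
    himg] at h1
  have h2 : ∀ z ∈ s, ENNReal.ofReal ((cH 3 : ℝ) *
      ((fderiv ℝ Φ z : D →L[ℝ] R3) : D →ₗ[ℝ] R3).normDet) = (cH 3 : ℝ≥0∞) *
        (ENNReal.ofReal ((π z).1 ^ 2) * ENNReal.ofReal √(firstForm r (π z).2).det) := by
    intro z hz
    have hq := hAU hz.2
    rw [ENNReal.ofReal_mul (cH 3).coe_nonneg, ENNReal.ofReal_coe_nnreal,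
      normDet_eq_sqrt _ ((OrthonormalBasis.singleton Unit ℝ).prod
        (EuclideanSpace.basisFun (Fin 2) ℝ)), ← ENNReal.ofReal_mul (sq_nonneg _)]
    congr 2
    have h3 : (Matrix.gram ℝ fun i => ((fderiv ℝ Φ z : D →L[ℝ] R3) : D →ₗ[ℝ] R3)
        (((OrthonormalBasis.singleton Unit ℝ).prod (EuclideanSpace.basisFun (Fin 2) ℝ)) i)) =
        Matrix.fromBlocks 1 0 0 (((π z).1 ^ 2) • firstForm r (π z).2) := by
      have h4 : ∀ a, ⟪fderiv ℝ r (π z).2 a, r (π z).2⟫ = 0 := fun a => by
        rw [real_inner_comm]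
        exact inner_param h hq a
      have b1 : ∀ i : Unit, ((fderiv ℝ Φ z : D →L[ℝ] R3) : D →ₗ[ℝ] R3)
          (((OrthonormalBasis.singleton Unit ℝ).prod (EuclideanSpace.basisFun (Fin 2) ℝ))
            (Sum.inl i)) = r (π z).2 := by
        intro i
        rw [ContinuousLinearMap.coe_coe, hfd z (hsO hz)]
        simp [hπ]
      have b2 : ∀ i : Fin 2, ((fderiv ℝ Φ z : D →L[ℝ] R3) : D →ₗ[ℝ] R3)
          (((OrthonormalBasis.singleton Unit ℝ).prod (EuclideanSpace.basisFun (Fin 2) ℝ))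
            (Sum.inr i)) = (π z).1 • pd i r (π z).2 := by
        intro i
        rw [ContinuousLinearMap.coe_coe, hfd z (hsO hz)]
        simp [hπ, pd]
      ext i j
      rcases i with i | i <;> rcases j with j | j
      · rw [Matrix.gram_apply, b1, hrr _ hq]
        simp
      · rw [Matrix.gram_apply, b1, b2, real_inner_smul_right, pd, inner_param h hq]
        simp
      · rw [Matrix.gram_apply, b1, b2, real_inner_smul_left, pd, h4]
        simp
      · rw [Matrix.gram_apply, b2, b2, real_inner_smul_left, real_inner_smul_right]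
        simp only [Matrix.fromBlocks_apply₂₂, Matrix.smul_apply, firstForm, Matrix.of_apply,
          smul_eq_mul]
        ring
    rw [h3, Matrix.det_fromBlocks_zero₂₁, Matrix.det_one, one_mul, Matrix.det_smul,
      Fintype.card_fin, Real.sqrt_mul (sq_nonneg _), Real.sqrt_sq (sq_nonneg _)]
  rw [setLIntegral_congr_fun hsm h2, lintegral_const_mul' _ _ ENNReal.coe_ne_top,
    ENNReal.smul_def, smul_eq_mul,
    ENNReal.mul_right_inj (by simpa using (cH_pos 3).ne') ENNReal.coe_ne_top] at h1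
  have h5 := (WithLp.volume_preserving_ofLp ℝ R2).setLIntegral_comp_preimage_emb
    (MeasurableEquiv.toLp 2 (ℝ × R2)).symm.measurableEmbedding
    (fun w : ℝ × R2 => ENNReal.ofReal (w.1 ^ 2) * ENNReal.ofReal √(firstForm r w.2).det)
    (Ioo 0 1 ×ˢ A)
  have h6 : ∫⁻ t in Ioo (0 : ℝ) 1, ENNReal.ofReal (t ^ 2) = ENNReal.ofReal (1 / 3) := by
    rw [← ofReal_integral_eq_lintegral_ofReal
      ((continuous_pow 2).integrableOn_Icc.mono_set Ioo_subset_Icc_self)
      (Eventually.of_forall fun t => sq_nonneg t), ← integral_Ioc_eq_integral_Ioo,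
      ← intervalIntegral.integral_of_le zero_le_one, integral_pow]
    norm_num
  rw [h1]
  refine (congrArg (3 * ·) h5).trans ?_
  rw [Measure.volume_eq_prod, ← Measure.prod_restrict, lintegral_prod_mul
    (f := fun t : ℝ => ENNReal.ofReal (t ^ 2))
    (g := fun q => ENNReal.ofReal √(firstForm r q).det) (by fun_prop)
    ((h.continuousOn_density.mono hAU).aemeasurable hA).ennreal_ofReal, h6, ← mul_assoc,
    show (3 : ℝ≥0∞) = ENNReal.ofReal 3 by simp, ← ENNReal.ofReal_mul (by norm_num)]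
  simp

theorem isSurfaceMeasure_toSphere : IsSurfaceMeasure (sphere (0 : R3) 1)
    ((volume : Measure R3).toSphere.map Subtype.val) := by
  refine ⟨?_, fun U r h A hAU hA => ?_⟩
  · rw [Measure.map_apply measurable_subtype_coe isClosed_sphere.measurableSet.compl]
    simp
  · have hm := h.measurableSet_image hAU hA
    have hsub : r '' A ⊆ sphere 0 1 := by
      rintro _ ⟨u, hu, rfl⟩
      exact h.mem (hAU hu)
    rw [Measure.map_apply measurable_subtype_coe hm,
      Measure.toSphere_apply' _ (measurable_subtype_coe hm), Subtype.image_preimage_coe,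
      inter_eq_right.2 hsub, ← volume_cone h hAU hA]
    simp

end Vale.Agent.P127W36
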